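import Vale.Agent.P286E16.UU

/-!
# Modules over `R⟨D⟩[ε] ⋊ W` are the twisted differential families
-/

set_option linter.all false

namespace Vale.Agent.P286EX

open CategoryTheory Vale.Agent.P286 Vale.Agent.P286.H847 Vale.Agent.P286.H353 Vale.Agent.P286E
  Vale.Agent.P286EK Vale.Agent.P286EU Vale.Agent.P286ET Vale.Agent.P286EG

noncomputable section

variable {I : Type} [SmallCategory I] {T : UDat I}

theorem sz_zero_deg {A : DGA} (n : ℤ) {x : A.R} (h : x ∈ A.gr 0) : A.sz n x = x := by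
  by_cases hn : Even n
  · exact A.sz_even hn x
  · rw [A.sz_odd hn, sg_zero h]

theorem sz_odd_deg {A : DGA} (n : ℤ) {x : A.R} (h : A.sg x = -x) :
    A.sz n x = (n.negOnePow : ℤ) • x := by
  by_cases hn : Even n
  · rw [A.sz_even hn, Int.negOnePow_even n hn, Units.val_one, one_smul]
  · rw [A.sz_odd hn, Int.negOnePow_odd n (Int.not_even_iff_odd.1 hn), h]
    exact (neg_one_zsmul _).symm

theorem sz_ep {D : Type} [Ring D] [Algebra ℂ D] (ω : Ivl D) (n : ℤ) :
    (Ext4 ω).sz n (E4.ep ω) = (n.negOnePow : ℤ) • E4.ep ω :=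
  sz_odd_deg (A := Ext4 ω) n (sg_ep ω)

/-- The action on cochains. -/
def cU (M N : DM (UUD T)) (p : ℤ) : DM.Coch M N p →ₗ[ℂ] UCo (toU M) (toU N) p where
  toFun u := UCo.mk (M := toU M) (N := toU N) u.f
    ⟨u.deg,
      fun i r x => (u.act i (uf T i r) x).trans
        (congrArg ((N.M i).act · _) (sz_zero_deg p (E4.io_mem _))),
      fun i x => (u.act i _ x).trans (congrArg ((N.M i).act · _) (sz_zero_deg p (E4.io_mem _))),
      fun i x => (u.act i _ x).trans ((congrArg ((N.M i).act · _) (sz_ep _ p)).trans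
        (LinearMap.congr_fun (map_zsmul (N.M i).act _ _) _)),
      fun i x => (u.act i _ x).trans (congrArg ((N.M i).act · _) (sz_zero_deg p E4.w_mem)),
      u.tr⟩
  map_add' _ _ := rfl
  map_smul' _ _ := rfl

theorem co_act {M N : UObj T} {p : ℤ} (u : UCo M N p) (i : I) (a : E4 (uω T i))
    (x : (M.M i).V) : u.f i (uact M i a x) = uact N i ((Ext4 (uω T i)).sz p a) (u.f i x) :=
  e4_ind (uact M i) ((uact N i).comp ((Ext4 (uω T i)).sz p)) (u.f i)
    (fun y x => by
      refine Eq.trans ?_ (congrArg (uact N i · _)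
        (sz_zero_deg (A := Ext4 (uω T i)) p (E4.io_mem y)).symm)
      rw [uact_io, uact_io]
      exact uφ_ind (uφ M i) (uφ N i) (u.f i)
        (fun r x => by rw [uφ_j, uφ_j, u.isCo.lin]) (fun x => by rw [uφ_p, uφ_p, u.isCo.D]) y x)
    (fun x => by
      refine Eq.trans ?_ (congrArg (uact N i · _)
        (sz_zero_deg (A := Ext4 (uω T i)) p E4.w_mem).symm)
      rw [uact_w, uact_w, u.isCo.w])
    (fun x => by
      refine Eq.trans ?_ (congrArg (uact N i · _) (sz_ep _ p).symm)
      rw [uact_ep, map_zsmul, uact_ep, u.isCo.e, LinearMap.smul_apply]) a x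

/-- The action on cochains. -/
def cD (M N : UObj T) (p : ℤ) : UCo M N p →ₗ[ℂ] DM.Coch (toD M) (toD N) p where
  toFun u := ⟨u.f, u.isCo.deg, co_act u, u.isCo.rho⟩
  map_add' _ _ := rfl
  map_smul' _ _ := rfl

variable (T)

/-- The DG functor from modules to families. -/
def fU : DGF (mdc (UUD T)) (UA T) where
  obj := toU
  map n := cU _ _ n
  map_one _ := rfl
  map_comp _ _ _ := rfl
  map_d {X Y} m n α := UCo.eq_dif (cU X Y m α) (cU X Y n (mdl m n α))
    (fun h i x => mdl_f h α i x)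
    (fun h => (congrArg (cU X Y n) (mdl_ne (F := X) (F' := Y) h α)).trans
      (UCo.ext' fun _ _ => rfl))

/-- The DG functor from families to modules. -/
def fD : DGF (UA T) (mdc (UUD T)) where
  obj := toD
  map n := cD _ _ n
  map_one _ := rfl
  map_comp _ _ _ := rfl
  map_d m n α := by
    by_cases h : m + 1 = n
    · exact DM.Coch.ext' fun i x => (UCo.dif_f h α i x).trans (mdl_f h (cD _ _ m α) i x).symm
    · exact ((congrArg (cD _ _ n) (UCo.dif_ne h α)).trans (map_zero _)).trans (mdl_ne h _).symm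

variable {T}

theorem uact_toU (M : DM (UUD T)) (i : I) (a : E4 (uω T i)) (x : (M.M i).V) :
    uact (toU M) i a x = (M.M i).act a x :=
  e4_ind (uact (toU M) i) (M.M i).act LinearMap.id
    (fun y x => by
      rw [uact_io]
      exact uφ_ind (uφ (toU M) i) ((M.M i).act.comp (E4.io _)) LinearMap.id
        (fun r x => uφ_j (toU M) i r x) (fun x => LinearMap.congr_fun (uφ_p (toU M) i) x) y x)
    (fun x => LinearMap.congr_fun (uact_w (toU M) i) x)
    (fun x => LinearMap.congr_fun (uact_ep (toU M) i) x) a x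

/-- The unit. -/
def uUn (M : DM (UUD T)) : zo (C := mdc (UUD T)) (toD (toU M)) ⟶ zo (C := mdc (UUD T)) M :=
  mmk (F := toD (toU M)) (F' := M) (fun _ => GD.Hom.id _) (uact_toU M) fun _ _ => rfl

/-- The counit. -/
def uCo (M : UObj T) : UCo (toU (toD M)) M 0 :=
  UCo.mk (M := toU (toD M)) (N := M) (fun _ => LinearMap.id)
    ⟨fun i m x hx => by rw [add_zero]; exact hx,
      fun i r x => (LinearMap.congr_fun (uact_io M i _) x).trans (uφ_j M i r x),
      fun i x => LinearMap.congr_fun ((uact_io M i _).trans (uφ_p M i)) x,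
      fun i x => (LinearMap.congr_fun (uact_ep M i) x).trans (one_smul ℤ _).symm,
      fun i x => LinearMap.congr_fun (uact_w M i) x, fun _ _ => rfl⟩

variable (T)

theorem inv_uu : Inv (mqis (UUD T)) (UWA T) (fU T).z0 (fD T).z0 where
  pF _ _ _ h := h
  pG _ _ _ h := h
  un := NatW.zig ⟨mnat (fun X => uUn (mo X)) fun _ _ _ _ _ => rfl, fun _ _ => GD.Qis.id _⟩
  co := NatW.zig ⟨⟨fun X => H353.zmk (C := UA T) (uCo (ob X)) ((UCo.dif_zero_iff _).2 fun _ _ => rfl),
    fun _ _ _ => H353.z_ext (UCo.ext' fun _ _ => rfl)⟩, fun _ _ => GD.Qis.id _⟩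

theorem eqv_ua : EQV (wm (UUD T)) (ua T) := ⟨fU T, fD T, inv_uu T⟩

theorem cart_toD (sm : ∀ i, Algebra.Smooth ℂ (T.C i)) (M : UObj T) :
    UCart M ↔ Cart (uB T sm) (toD M) := by
  have l : ∀ i, Li (M.ag i) ((uB T sm).ag i (toDG M i)) (GD.Hom.id _) := fun i z x =>
    ((LinearMap.congr_fun (uact_io M i _) x).trans (uφ_j M i _ x)).symm
  exact ⟨fun h i j α => (h i j α).fwd ((uB T sm).sl (toD M) α) (l i) (l j) (GD.Qis.id _)
      (GD.Qis.id _) fun _ => rfl,
    fun h i j α => (h i j α).rev (M.sl α) (l i) (l j) (GD.Qis.id _) (GD.Qis.id _) fun _ => rfl⟩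

/-- The cartesian modules are the cartesian families. -/
theorem eqv_um (sm : ∀ i, Algebra.Smooth ℂ (T.C i)) : EQV (wc (uB T sm)) (um T) :=
  eqv_full (X := wm (UUD T)) (Y := ua T) (inv_uu T) (invt_cart _) (cart_toD T sm)

variable {D : CD I} (xd : XD D) (lam : ℂ) (k : ℤ)

/-- The base of the diagram defined by a chart datum. -/
def uBx : Base (UUD (xd.vfd.uk lam k)) xd.rd := uB (xd.vfd.uk lam k) xd.sm

theorem uBx_ι (i : I) (z : D.C i) :
    (uBx xd lam k).ι i z = uf (xd.vfd.uk lam k) i (Dc.of (D.f i) z) := rfl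

theorem eqv_uBx : EQV (wc (uBx xd lam k)) (um (xd.vfd.uk lam k)) := eqv_um _ xd.sm

end

end Vale.Agent.P286EX
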