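import Vale.Agent.P286EX10.Ext
import Vale.Agent.P286EA2.Rd

/-!
# The diagram of algebras `R⟨D⟩[ε] ⋊ W` and its modules
-/

set_option linter.all false

namespace Vale.Agent.P286EX

open CategoryTheory Vale.Agent.P286 Vale.Agent.P286.H847 Vale.Agent.P286.H353 Vale.Agent.P286E
  Vale.Agent.P286EK Vale.Agent.P286EU Vale.Agent.P286ET Vale.Agent.P286EG

noncomputable section

variable {I : Type} [SmallCategory I] (T : UDat I)

/-- The vector field. -/
abbrev uδ (i : I) : Unit → Derivation ℂ (T.R i) (T.R i) := fun _ => T.dd i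

/-- The differential operators generated by the vector field. -/
abbrev UD (i : I) : Type := DO (uδ T i)

/-- The functions. -/
abbrev uj (i : I) : T.R i →ₐ[ℂ] UD T i := DO.j (uδ T i)

/-- The vector field as an operator. -/
abbrev up (i : I) : UD T i := DO.p (uδ T i) ()

theorem up_uj (i : I) (r : T.R i) :
    up T i * uj T i r = uj T i r * up T i + uj T i (T.dd i r) := DO.pj (uδ T i) () r

/-- The involution. -/
def uwf (i : I) : UD T i →ₐ[ℂ] UD T i :=
  DO.lift ((uj T i).comp (T.w i)) (fun _ => - up T i) (fun _ r => by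
    rw [AlgHom.comp_apply, AlgHom.comp_apply, T.w_dd, map_neg, neg_mul, up_uj, mul_neg, neg_add])
    fun _ _ => rfl

theorem uwf_j (i : I) (r : T.R i) : uwf T i (uj T i r) = uj T i (T.w i r) := DO.lift_j _ _ _ _ r

theorem uwf_p (i : I) : uwf T i (up T i) = - up T i := DO.lift_p _ _ _ _ ()

/-- The involution. -/
def uω (i : I) : Ivl (UD T i) where
  f := uwf T i
  ff x := AlgHom.congr_fun (DO.hom_ext (φ := (uwf T i).comp (uwf T i)) (ψ := AlgHom.id ℂ _)
    (fun r => by rw [AlgHom.comp_apply, uwf_j, uwf_j, T.w_w, AlgHom.id_apply])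
    fun _ => by rw [AlgHom.comp_apply, uwf_p, map_neg, uwf_p, neg_neg, AlgHom.id_apply]) x

theorem uω_f (i : I) : (uω T i).f = uwf T i := rfl

/-- The transition maps. -/
def uτ {i j : I} (α : i ⟶ j) : UD T i →ₐ[ℂ] UD T j :=
  DO.lift ((uj T j).comp (T.tau α)) (fun _ => up T j + uj T j (T.eta α)) (fun _ r => by
    rw [AlgHom.comp_apply, AlgHom.comp_apply, T.tau_dd, add_mul, mul_add, up_uj, ← map_mul,
      ← map_mul, mul_comm (T.eta α), add_right_comm])
    fun _ _ => rfl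

theorem uτ_j {i j : I} (α : i ⟶ j) (r : T.R i) : uτ T α (uj T i r) = uj T j (T.tau α r) :=
  DO.lift_j _ _ _ _ r

theorem uτ_p {i j : I} (α : i ⟶ j) : uτ T α (up T i) = up T j + uj T j (T.eta α) :=
  DO.lift_p _ _ _ _ ()

theorem uτ_w {i j : I} (α : i ⟶ j) (x : UD T i) :
    uτ T α ((uω T i).f x) = (uω T j).f (uτ T α x) :=
  AlgHom.congr_fun (DO.hom_ext (φ := (uτ T α).comp (uwf T i)) (ψ := (uwf T j).comp (uτ T α))
    (fun r => by
      rw [AlgHom.comp_apply, AlgHom.comp_apply, uwf_j, uτ_j, uτ_j, uwf_j, T.tau_w])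
    fun _ => by
      rw [AlgHom.comp_apply, AlgHom.comp_apply, uwf_p, map_neg, uτ_p, map_add, uwf_p, uwf_j,
        T.w_eta, map_neg, neg_add]) x

theorem uτ_id (i : I) (x : UD T i) : uτ T (𝟙 i) x = x :=
  AlgHom.congr_fun (DO.hom_ext (φ := uτ T (𝟙 i)) (ψ := AlgHom.id ℂ _)
    (fun r => by rw [uτ_j, T.tau_id, AlgHom.id_apply])
    fun _ => by rw [uτ_p, T.eta_id, map_zero, add_zero, AlgHom.id_apply]) x

theorem uτ_comp {i j k : I} (α : i ⟶ j) (β : j ⟶ k) (x : UD T i) :
    uτ T (α ≫ β) x = uτ T β (uτ T α x) :=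
  AlgHom.congr_fun (DO.hom_ext (φ := uτ T (α ≫ β)) (ψ := (uτ T β).comp (uτ T α))
    (fun r => by rw [AlgHom.comp_apply, uτ_j, uτ_j, uτ_j, T.tau_comp])
    fun _ => by
      rw [AlgHom.comp_apply, uτ_p, uτ_p, map_add (uτ T β), uτ_p, uτ_j, T.eta_comp, map_add,
        add_assoc, add_comm (uj T k (T.eta β))]) x

/-- The diagram of DG algebras. -/
def UUD : DD I where
  A i := Ext4 (uω T i)
  τ α := Ext4.map (uτ T α) (uτ_w T α)
  τ_id i x := E4.ext (uτ_id T i _) (uτ_id T i _) (uτ_id T i _) (uτ_id T i _)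
  τ_comp α β x := E4.ext (uτ_comp T α β _) (uτ_comp T α β _) (uτ_comp T α β _) (uτ_comp T α β _)

theorem UU_io {i j : I} (α : i ⟶ j) (x : UD T i) :
    ((UUD T).τ α).f (E4.io (uω T i) x) = E4.io (uω T j) (uτ T α x) := E4.map_io _ (uτ_w T α) x

theorem UU_w {i j : I} (α : i ⟶ j) : ((UUD T).τ α).f (E4.w (uω T i)) = E4.w (uω T j) :=
  E4.map_w _ (uτ_w T α)

theorem UU_ep {i j : I} (α : i ⟶ j) : ((UUD T).τ α).f (E4.ep (uω T i)) = E4.ep (uω T j) :=
  E4.map_ep _ (uτ_w T α)

/-- The functions in the algebra. -/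
def uf (i : I) : T.R i →ₐ[ℂ] ((UUD T).A i).R := (E4.io (uω T i)).comp (uj T i)

theorem uf_apply (i : I) (r : T.R i) : uf T i r = E4.io (uω T i) (uj T i r) := rfl

theorem UU_uf {i j : I} (α : i ⟶ j) (r : T.R i) :
    ((UUD T).τ α).f (uf T i r) = uf T j (T.tau α r) :=
  (UU_io T α _).trans (congrArg (E4.io (uω T j)) (uτ_j T α r))

/-- The base rings. -/
abbrev uRD (sm : ∀ i, Algebra.Smooth ℂ (T.C i)) : RD I := @RD.mk I _ T.C T.cc T.ca sm T.κ

/-- The base. -/
def uB (sm : ∀ i, Algebra.Smooth ℂ (T.C i)) : Base (UUD T) (uRD T sm) where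
  ι i := (uf T i).comp (T.ι i)
  gr _ _ := E4.io_mem _
  d _ _ := rfl
  τ_ι α z := (UU_uf T α _).trans (congrArg (uf T _) (T.tau_ι α z))

variable {T}

/-! ### From modules to families -/

/-- The complex of modules over the functions. -/
def toRG {i : I} (N : DGM ((UUD T).A i)) : RG (T.R i) :=
  letI : Module (T.R i) N.V := Module.compHom N.V (N.act.comp (uf T i)).toRingHom
  { toGD := N.toGD
    tw := ⟨fun c r x => by
      change N.act (uf T i (c • r)) x = c • N.act (uf T i r) x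
      rw [map_smul, map_smul, LinearMap.smul_apply]⟩
    d_smul := fun r x => ((N.lm (uf T i r) (E4.io_mem _) rfl).comm x).symm
    gr_smul := fun m r x hx => (N.lm (uf T i r) (E4.io_mem _) rfl).deg m x hx }

theorem act_eq {A : DGA} (N : DGM A) {a b c e : A.R} (h : a * b = c * e) (x : N.V) :
    N.act a (N.act b x) = N.act c (N.act e x) := by rw [← N.act_mul, h, N.act_mul]

theorem act_neg {A : DGA} (N : DGM A) {a b c e : A.R} (h : a * b = -(c * e)) (x : N.V) :
    N.act a (N.act b x) = - N.act c (N.act e x) := by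
  rw [← N.act_mul, h, map_neg, LinearMap.neg_apply, N.act_mul]

theorem act_add {A : DGA} (N : DGM A) {a b c e f : A.R} (h : a * b = c * e + f) (x : N.V) :
    N.act a (N.act b x) = N.act c (N.act e x) + N.act f x := by
  rw [← N.act_mul, h, map_add, LinearMap.add_apply, N.act_mul]

theorem d_odd {A : DGA} (N : DGM A) {a : A.R} (h : A.d a = 0) (h' : A.sg a = -a) (x : N.V) :
    N.d (N.act a x) = - N.act a (N.d x) := by
  rw [N.leib, h, h', map_zero, map_neg, LinearMap.zero_apply, LinearMap.neg_apply, zero_add]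

theorem sg_io {D : Type} [Ring D] [Algebra ℂ D] (ω : Ivl D) (y : D) :
    E4.sg ω (E4.io ω y) = E4.io ω y := sg_zero (A := Ext4 ω) (E4.io_mem y)

theorem sg_w {D : Type} [Ring D] [Algebra ℂ D] (ω : Ivl D) : E4.sg ω (E4.w ω) = E4.w ω :=
  sg_zero (A := Ext4 ω) E4.w_mem

theorem sg_ep {D : Type} [Ring D] [Algebra ℂ D] (ω : Ivl D) : E4.sg ω (E4.ep ω) = - E4.ep ω :=
  ((Ext4 ω).sg_gr (-1) _ E4.ep_mem).trans (neg_one_zsmul _)

/-- The family defined by a module. -/
def toU (M : DM (UUD T)) : UObj T where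
  M i := toRG (M.M i)
  D i := (M.M i).act (E4.io (uω T i) (up T i))
  D_smul i r x := act_add (M.M i) (((map_mul (E4.io (uω T i)) _ _).symm.trans
      (congrArg (E4.io (uω T i)) (up_uj T i r))).trans ((map_add _ _ _).trans
        (congrArg (· + _) (map_mul _ _ _)))) x
  D_d i x := (((M.M i).lm _ (E4.io_mem _) rfl).comm x).symm
  D_gr i m x hx := ((M.M i).lm _ (E4.io_mem _) rfl).deg m x hx
  e i := (M.M i).act (E4.ep (uω T i))
  e_smul i r x := act_eq (M.M i) (E4.ep_io _ _) x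
  e_d i x := d_odd (M.M i) rfl (sg_ep _) x
  e_gr i m x hx := by
    have h := (M.M i).act_gr (-1) m _ x E4.ep_mem hx
    rwa [neg_add_eq_sub] at h
  e_e i x := ((M.M i).act_mul _ _ x).symm.trans ((congrArg ((M.M i).act · x) (E4.ep_ep _)).trans
    (LinearMap.congr_fun (map_zero (M.M i).act) x))
  D_e i x := act_eq (M.M i) (E4.ep_io _ _).symm x
  w i := (M.M i).act (E4.w (uω T i))
  w_smul i r x := act_eq (M.M i) ((E4.w_io _ _).trans
    (congrArg (fun y => E4.io (uω T i) y * E4.w (uω T i)) (uwf_j T i r))) x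
  w_d i x := (((M.M i).lm _ E4.w_mem rfl).comm x).symm
  w_gr i m x hx := ((M.M i).lm _ E4.w_mem rfl).deg m x hx
  w_w i x := ((M.M i).act_mul _ _ x).symm.trans ((congrArg ((M.M i).act · x) (E4.w_w _)).trans
    ((M.M i).act_one x))
  w_D i x := act_neg (M.M i) ((E4.w_io _ _).trans
    ((congrArg (fun y => E4.io (uω T i) y * E4.w (uω T i)) (uwf_p T i)).trans
      (by rw [map_neg, neg_mul]; rfl))) x
  w_e i x := act_neg (M.M i) (E4.w_ep _) x
  rho α := (M.ρ α).f
  rho_id := M.ρ_id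
  rho_comp := M.ρ_comp
  rho_smul α r x := (M.ρ_act α _ x).trans (congrArg ((M.M _).act · _) (UU_uf T α r))
  rho_d α := (M.ρ α).comm
  rho_gr α := (M.ρ α).deg
  rho_D {i j} α x := (M.ρ_act α _ x).trans ((congrArg ((M.M j).act · _) ((UU_io T α _).trans
    ((congrArg (E4.io (uω T j)) (uτ_p T α)).trans (map_add _ _ _)))).trans
      (LinearMap.congr_fun (map_add (M.M j).act _ _) _))
  rho_e α x := (M.ρ_act α _ x).trans (congrArg ((M.M _).act · _) (UU_ep T α))
  rho_w α x := (M.ρ_act α _ x).trans (congrArg ((M.M _).act · _) (UU_w T α))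

/-! ### From families to modules -/

variable (M : UObj T)

/-- The action of the differential operators. -/
def uφ (i : I) : UD T i →ₐ[ℂ] Module.End ℂ (M.M i).V :=
  DO.lift (Algebra.lsmul ℂ ℂ (M.M i).V) (fun _ => M.D i)
    (fun _ r => LinearMap.ext fun x => M.D_smul i r x) fun _ _ => rfl

theorem uφ_j (i : I) (r : T.R i) (x : (M.M i).V) : uφ M i (uj T i r) x = r • x :=
  LinearMap.congr_fun (DO.lift_j _ _ _ _ r) x

theorem uφ_p (i : I) : uφ M i (up T i) = M.D i := DO.lift_p _ _ _ _ ()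

theorem uφ_ind {V V' : Type} [AddCommGroup V] [Module ℂ V] [AddCommGroup V'] [Module ℂ V'] {i : I}
    (φ : UD T i →ₐ[ℂ] Module.End ℂ V) (ψ : UD T i →ₐ[ℂ] Module.End ℂ V') (u : V →ₗ[ℂ] V')
    (hj : ∀ r x, u (φ (uj T i r) x) = ψ (uj T i r) (u x))
    (hp : ∀ x, u (φ (up T i) x) = ψ (up T i) (u x)) (y : UD T i) (x : V) :
    u (φ y x) = ψ y (u x) := by
  induction y using DO.ind generalizing x with
  | hj r => exact hj r x
  | hp _ => exact hp x
  | add y z hy hz => simp only [map_add, LinearMap.add_apply, hy, hz]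
  | mul y z hy hz => simp only [map_mul, Module.End.mul_apply, hy, hz]

theorem urel (i : I) : E4.Rel (uω T i) (uφ M i) (M.w i) (M.e i) where
  ww := LinearMap.ext (M.w_w i)
  pp := LinearMap.ext (M.e_e i)
  wp := LinearMap.ext (M.w_e i)
  wi y := LinearMap.ext (uφ_ind (uφ M i) ((uφ M i).comp (uwf T i)) (M.w i)
    (fun r x => by rw [AlgHom.comp_apply, uwf_j, uφ_j, uφ_j, M.w_smul])
    (fun x => by rw [AlgHom.comp_apply, uwf_p, map_neg, uφ_p, M.w_D, LinearMap.neg_apply]) y)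
  pi y := LinearMap.ext (uφ_ind (uφ M i) (uφ M i) (M.e i)
    (fun r x => by rw [uφ_j, uφ_j, M.e_smul]) (fun x => by rw [uφ_p, M.D_e]) y)

/-- The action of the algebra. -/
def uact (i : I) : E4 (uω T i) →ₐ[ℂ] Module.End ℂ (M.M i).V :=
  E4.lift (uφ M i) (M.w i) (M.e i) (urel M i)

theorem uact_io (i : I) (y : UD T i) : uact M i (E4.io _ y) = uφ M i y := E4.lift_io _ _ _ _ y

theorem uact_w (i : I) : uact M i (E4.w _) = M.w i := E4.lift_w _ _ _ _

theorem uact_ep (i : I) : uact M i (E4.ep _) = M.e i := E4.lift_ep _ _ _ _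

theorem e4_ind {D : Type} [Ring D] [Algebra ℂ D] {ω : Ivl D} {V V' : Type} [AddCommGroup V]
    [Module ℂ V] [AddCommGroup V'] [Module ℂ V'] (φ : E4 ω →ₐ[ℂ] Module.End ℂ V)
    (ψ : E4 ω →ₐ[ℂ] Module.End ℂ V') (u : V →ₗ[ℂ] V')
    (hi : ∀ y x, u (φ (E4.io ω y) x) = ψ (E4.io ω y) (u x))
    (hw : ∀ x, u (φ (E4.w ω) x) = ψ (E4.w ω) (u x))
    (he : ∀ x, u (φ (E4.ep ω) x) = ψ (E4.ep ω) (u x)) (a : E4 ω) (x : V) :
    u (φ a x) = ψ a (u x) := by
  induction a using E4.ind generalizing x with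
  | hi y => exact hi y x
  | hw => exact hw x
  | he => exact he x
  | add y z hy hz => simp only [map_add, LinearMap.add_apply, hy, hz]
  | mul y z hy hz => simp only [map_mul, Module.End.mul_apply, hy, hz]

theorem uφ_gr (i : I) (y : UD T i) (m : ℤ) (x : (M.M i).V) (hx : x ∈ (M.M i).gr m) :
    uφ M i y x ∈ (M.M i).gr m := by
  induction y using DO.ind generalizing x with
  | hj r => exact (uφ_j M i r x).symm ▸ (M.M i).gr_smul m r x hx
  | hp _ => exact (uφ_p M i).symm ▸ M.D_gr i m x hx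
  | add y z hy hz => rw [map_add]; exact add_mem (hy x hx) (hz x hx)
  | mul y z hy hz => rw [map_mul]; exact hy _ (hz x hx)

/-- The module on a chart. -/
def toDG (i : I) : DGM ((UUD T).A i) where
  toGD := (M.M i).toGD
  act := uact M i
  leib a x := (e4_ind (uact M i) ((uact M i).comp (E4.sg _)) (M.M i).d
    (fun y x => by
      rw [AlgHom.comp_apply, sg_io, uact_io]
      exact uφ_ind (uφ M i) (uφ M i) (M.M i).d
        (fun r x => by rw [uφ_j, uφ_j, RG.d_smul]) (fun x => by rw [uφ_p, M.D_d]) y x)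
    (fun x => by rw [AlgHom.comp_apply, sg_w, uact_w, M.w_d])
    (fun x => by rw [AlgHom.comp_apply, sg_ep, map_neg, uact_ep, M.e_d, LinearMap.neg_apply])
    a x).trans ((zero_add _).symm.trans
      (congrArg (· + _) (LinearMap.congr_fun (map_zero (uact M i)) x).symm))
  act_gr k m a x ha hx := by
    change (uφ M i a.a + uφ M i a.b * M.w i + uφ M i a.c * M.e i +
      uφ M i a.e * (M.e i * M.w i)) x ∈ (M.M i).gr (k + m)
    rcases E4.gr_cases ha with ⟨rfl, h1, h2⟩ | ⟨rfl, h1, h2⟩ | rfl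
    · rw [h1, h2, map_zero, zero_mul, zero_mul, add_zero, add_zero, zero_add]
      exact add_mem (uφ_gr M i _ m x hx) (uφ_gr M i _ m _ (M.w_gr i m x hx))
    · rw [h1, h2, map_zero, zero_mul, add_zero, zero_add, neg_add_eq_sub]
      exact add_mem (uφ_gr M i _ _ _ (M.e_gr i m x hx))
        (uφ_gr M i _ _ _ (M.e_gr i m _ (M.w_gr i m x hx)))
    · simp

/-- The module defined by a family. -/
def toD : DM (UUD T) where
  M := toDG M
  ρ α := M.tr α
  ρ_act {i j} α a x := e4_ind (uact M i) ((uact M j).comp (E4.map (uτ T α) (uτ_w T α)))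
    (M.rho α)
    (fun y x => by
      rw [AlgHom.comp_apply, E4.map_io, uact_io, uact_io]
      exact uφ_ind (uφ M i) ((uφ M j).comp (uτ T α)) (M.rho α)
        (fun r x => by rw [AlgHom.comp_apply, uτ_j, uφ_j, uφ_j, M.rho_smul])
        (fun x => by
          rw [AlgHom.comp_apply, uτ_p, map_add, LinearMap.add_apply, uφ_p, uφ_p, uφ_j, M.rho_D])
        y x)
    (fun x => by rw [AlgHom.comp_apply, E4.map_w, uact_w, uact_w, M.rho_w])
    (fun x => by rw [AlgHom.comp_apply, E4.map_ep, uact_ep, uact_ep, M.rho_e]) a x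
  ρ_id := M.rho_id
  ρ_comp := M.rho_comp

end

end Vale.Agent.P286EX
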